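import Vale.Agent.P237.Petty.Cor.Low20.Chunks
import Vale.Agent.P237.Petty.Cor.Low20.H3b.Data

/-!
# P237: kernel checks of boxes 23 to 23
-/

namespace Vale.Agent.P237.Petty.Cor.Low20.H3b

def check23_0 : cutAll dat.Z1
    ((boxAll dat box23).take 12)
  [.leaf, .leaf, .leaf, .leaf, .leaf, .leaf, .leaf, (.split 0 (.split 1 .leaf (.split 0 (.split 1
    .leaf (.split 0 .leaf (.split 1 .leaf .out))) (.split 1 (.split 0 .leaf (.split 1 (.split 0
    .leaf .out) .out)) .out))) (.split 1 (.split 0 (.split 1 .leaf (.split 0 (.split 1 .leaf .out)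
    .out)) (.split 1 (.split 0 (.split 1 .leaf .out) .out) .out)) .out)), .leaf, (.split 0 (.split 1
    .leaf (.split 0 (.split 1 .leaf (.split 0 .leaf (.split 1 .leaf .out))) (.split 1 (.split 0
    (.split 1 .leaf (.split 0 .leaf .out)) (.split 1 (.split 0 .leaf .out) .out)) .out))) (.split 1
    (.split 0 (.split 1 (.split 0 .leaf (.split 1 .leaf (.split 0 .leaf (.split 1 .leaf .out))))
    (.split 0 (.split 1 (.split 0 .leaf (.split 1 .leaf .out)) .out) .out)) (.split 1 (.split 0
    (.split 1 (.split 0 .leaf .out) .out) .out) .out)) .out)), .leaf, (.split 2 (.split 2 (.split 0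
    .leaf .leaf) (.split 0 .leaf .leaf)) (.split 2 (.split 0 .leaf .leaf) (.split 0 .leaf .leaf)))] = true := by
  decide +kernel

def check23_1 : cutAll dat.Z1
    (((boxAll dat box23).drop 12).take 5)
  [(.split 2 (.split 2 (.split 0 .leaf .leaf) (.split 0 .leaf .leaf)) (.split 2 (.split 0 .leaf
    .leaf) (.split 0 .leaf .leaf))), (.split 2 (.split 2 (.split 0 .leaf .leaf) (.split 0 .leaf
    .leaf)) (.split 2 (.split 0 .leaf .leaf) (.split 0 .leaf .leaf))), (.split 2 (.split 2 (.split 0
    .leaf .leaf) (.split 0 .leaf .leaf)) (.split 2 (.split 0 .leaf .leaf) (.split 0 .leaf .leaf))),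
    (.split 2 (.split 2 (.split 0 .leaf .leaf) (.split 0 .leaf .leaf)) (.split 2 (.split 0 .leaf
    .leaf) (.split 0 .leaf .leaf))), (.split 2 (.split 2 (.split 0 .leaf .leaf) (.split 0 .leaf
    .leaf)) (.split 2 (.split 0 .leaf .leaf) (.split 0 .leaf .leaf)))] = true := by
  decide +kernel

def check23_2 : cutAll dat.Z1
    ((((boxAll dat box23).drop 12).drop 5).take 6)
  [(.split 0 (.split 2 (.split 1 .leaf .leaf) (.split 1 (.split 0 .leaf .leaf) .leaf)) .leaf),
    (.split 0 (.split 2 (.split 1 (.split 0 .leaf .leaf) .leaf) (.split 1 (.split 0 .leaf .leaf)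
    .leaf)) .leaf), (.split 2 (.split 2 (.split 0 .leaf .leaf) (.split 0 .leaf .leaf)) (.split 2
    (.split 0 .leaf .leaf) (.split 0 .leaf .leaf))), (.split 2 (.split 2 (.split 0 .leaf .leaf)
    (.split 0 .leaf .leaf)) (.split 2 (.split 0 .leaf .leaf) (.split 0 .leaf .leaf))), (.split 2
    (.split 2 (.split 0 .leaf .leaf) (.split 0 .leaf .leaf)) (.split 2 (.split 0 .leaf .leaf)
    (.split 0 .leaf .leaf))), (.split 2 (.split 2 (.split 0 .leaf .leaf) (.split 0 .leaf .leaf))
    (.split 2 (.split 0 .leaf .leaf) (.split 0 .leaf .leaf)))] = true := by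
  decide +kernel

def check23_3 : cutAll dat.Z1
    (((((boxAll dat box23).drop 12).drop 5).drop 6).take 6)
  [(.split 2 (.split 2 (.split 0 .leaf .leaf) (.split 0 .leaf .leaf)) (.split 2 (.split 0 .leaf
    .leaf) (.split 0 .leaf .leaf))), (.split 2 (.split 2 (.split 0 .leaf .leaf) (.split 0 .leaf
    .leaf)) (.split 2 (.split 0 .leaf .leaf) (.split 0 .leaf .leaf))), (.split 2 (.split 2 (.split 0
    .leaf .leaf) (.split 0 .leaf .leaf)) (.split 2 (.split 0 .leaf .leaf) (.split 0 .leaf .leaf))),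
    (.split 0 (.split 2 (.split 1 .leaf .leaf) (.split 1 (.split 0 .leaf .leaf) .leaf)) .leaf),
    (.split 0 (.split 2 (.split 1 (.split 0 .leaf .leaf) .leaf) (.split 1 (.split 0 .leaf .leaf)
    .leaf)) .leaf), (.split 2 (.split 2 (.split 0 .leaf .leaf) (.split 0 .leaf .leaf)) (.split 2
    (.split 0 .leaf .leaf) (.split 0 .leaf .leaf)))] = true := by
  decide +kernel

def check23_4 : cutAll dat.Z1
    (((((boxAll dat box23).drop 12).drop 5).drop 6).drop 6)
  [.leaf, .leaf, (.split 0 .leaf .leaf), .leaf, .leaf, .leaf, .leaf, .leaf, .leaf] = true := by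
  decide +kernel

theorem sound23 : BoxSound dat box23 ∧ TopSound dat box23 :=
  bound_of_boxAll
    (cutAll_of_take 12 check23_0
      (cutAll_of_take 5 check23_1
      (cutAll_of_take 6 check23_2
      (cutAll_of_take 6 check23_3
      check23_4))))

end Vale.Agent.P237.Petty.Cor.Low20.H3b
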