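import Vale.Agent.P237.Petty.Cor.Low20.Chunks
import Vale.Agent.P237.Petty.Cor.Low20.H3b.Data

/-!
# P237: kernel checks of boxes 5 to 7
-/

namespace Vale.Agent.P237.Petty.Cor.Low20.H3b

def check5_0 : cutAll dat.Z1
    ((boxAll dat box5).take 26)
  [(.split 0 (.split 1 (.split 0 .leaf .leaf) (.split 0 .leaf .leaf)) .leaf), .leaf, .leaf, .leaf,
    .leaf, .leaf, .leaf, .leaf, .leaf, .leaf, (.split 0 (.split 0 (.split 1 .leaf (.split 0 .leaf
    (.split 0 .leaf .leaf))) .leaf) .leaf), .leaf, .leaf, .leaf, .leaf, .leaf, .leaf, (.split 2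
    .leaf (.split 2 .leaf (.split 2 .leaf (.split 2 .leaf (.split 2 .leaf .leaf))))), .leaf, .leaf,
    .leaf, .leaf, .leaf, .leaf, .leaf, .leaf] = true := by
  decide +kernel

def check5_1 : cutAll dat.Z1
    ((boxAll dat box5).drop 26)
  [(.split 2 .leaf (.split 2 .leaf (.split 2 .leaf (.split 2 .leaf (.split 2 .leaf .leaf))))),
    .leaf, .leaf, .leaf, .leaf, .leaf, .leaf, .leaf, .leaf, .leaf, .leaf, .leaf, .leaf, .leaf] = true := by
  decide +kernel

theorem sound5 : BoxSound dat box5 ∧ TopSound dat box5 :=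
  bound_of_boxAll
    (cutAll_of_take 26 check5_0
      check5_1)

def check6_0 : cutAll dat.Z1
    ((boxAll dat box6).take 32)
  [.leaf, .leaf, .leaf, .leaf, .leaf, .leaf, .leaf, .leaf, .leaf, .leaf, .leaf, .leaf, .leaf, .leaf,
    .leaf, .leaf, .leaf, (.split 2 .leaf (.split 2 .leaf (.split 2 .leaf (.split 2 .leaf (.split 2
    .leaf (.split 2 .leaf .leaf)))))), .leaf, .leaf, .leaf, .leaf, .leaf, .leaf, .leaf, .leaf,
    (.split 2 .leaf (.split 2 .leaf (.split 2 .leaf (.split 2 .leaf (.split 2 .leaf (.split 2 .leaf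
    .leaf)))))), .leaf, .leaf, .leaf, .leaf, .leaf] = true := by
  decide +kernel

def check6_1 : cutAll dat.Z1
    ((boxAll dat box6).drop 32)
  [(.split 0 .leaf .leaf), .leaf, (.split 0 (.split 1 (.split 0 .leaf .leaf) (.split 0 .leaf .leaf))
    .leaf), .leaf, .leaf, .leaf, .leaf, .leaf] = true := by
  decide +kernel

theorem sound6 : BoxSound dat box6 ∧ TopSound dat box6 :=
  bound_of_boxAll
    (cutAll_of_take 32 check6_0
      check6_1)

def check7_0 : cutAll dat.Z1
    ((boxAll dat box7).take 32)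
  [.leaf, .leaf, .leaf, .leaf, .leaf, .leaf, .leaf, .leaf, .leaf, .leaf, .leaf, .leaf, .leaf, .leaf,
    .leaf, .leaf, .leaf, (.split 2 .leaf (.split 2 .leaf (.split 2 .leaf (.split 2 .leaf (.split 2
    .leaf (.split 2 .leaf .leaf)))))), .leaf, .leaf, .leaf, .leaf, .leaf, .leaf, .leaf, .leaf,
    (.split 2 .leaf (.split 2 .leaf (.split 2 .leaf (.split 2 .leaf (.split 2 .leaf (.split 2 .leaf
    .leaf)))))), .leaf, .leaf, .leaf, .leaf, (.split 0 .leaf .leaf)] = true := by
  decide +kernel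

def check7_1 : cutAll dat.Z1
    ((boxAll dat box7).drop 32)
  [.leaf, .leaf, .leaf, .leaf, .leaf, .leaf] = true := by
  decide +kernel

theorem sound7 : BoxSound dat box7 ∧ TopSound dat box7 :=
  bound_of_boxAll
    (cutAll_of_take 32 check7_0
      check7_1)

end Vale.Agent.P237.Petty.Cor.Low20.H3b
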