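import Vale.Agent.P237.Petty.Cor.Low20.Chunks
import Vale.Agent.P237.Petty.Cor.Low20.H3b.Data

/-!
# P237: kernel checks of boxes 8 to 10
-/

namespace Vale.Agent.P237.Petty.Cor.Low20.H3b

def check8_0 : cutAll dat.Z1
    ((boxAll dat box8).take 33)
  [.leaf, .leaf, .leaf, .leaf, .leaf, .leaf, .leaf, .leaf, .leaf, .leaf, .leaf, .leaf, .leaf, .leaf,
    .leaf, .leaf, .leaf, (.split 2 .leaf (.split 2 .leaf (.split 2 .leaf (.split 2 .leaf (.split 2
    .leaf .leaf))))), .leaf, .leaf, .leaf, .leaf, .leaf, .leaf, .leaf, .leaf, (.split 2 .leaf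
    (.split 2 .leaf (.split 2 .leaf (.split 2 .leaf (.split 2 .leaf (.split 2 .leaf .leaf)))))),
    .leaf, .leaf, .leaf, .leaf, (.split 0 .leaf .leaf), .leaf] = true := by
  decide +kernel

def check8_1 : cutAll dat.Z1
    ((boxAll dat box8).drop 33)
  [.leaf, .leaf, .leaf, .leaf, .leaf] = true := by
  decide +kernel

theorem sound8 : BoxSound dat box8 ∧ TopSound dat box8 :=
  bound_of_boxAll
    (cutAll_of_take 33 check8_0
      check8_1)

def check9_0 : cutAll dat.Z1
    ((boxAll dat box9).take 34)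
  [.leaf, .leaf, .leaf, .leaf, .leaf, .leaf, .leaf, .leaf, .leaf, .leaf, .leaf, .leaf, .leaf, .leaf,
    .leaf, .leaf, .leaf, (.split 2 .leaf (.split 2 .leaf (.split 2 .leaf (.split 2 .leaf (.split 2
    .leaf .leaf))))), .leaf, .leaf, .leaf, .leaf, .leaf, .leaf, .leaf, .leaf, (.split 2 .leaf
    (.split 2 .leaf (.split 2 .leaf (.split 2 .leaf (.split 2 .leaf .leaf))))), .leaf, .leaf, .leaf,
    .leaf, (.split 0 .leaf .leaf), .leaf, .leaf] = true := by
  decide +kernel

def check9_1 : cutAll dat.Z1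
    ((boxAll dat box9).drop 34)
  [.leaf, .leaf, .leaf, .leaf] = true := by
  decide +kernel

theorem sound9 : BoxSound dat box9 ∧ TopSound dat box9 :=
  bound_of_boxAll
    (cutAll_of_take 34 check9_0
      check9_1)

def check10_0 : cutAll dat.Z1
    (boxAll dat box10)
  [.leaf, .leaf, .leaf, .leaf, .leaf, .leaf, .leaf, .leaf, .leaf, .leaf, .leaf, .leaf, .leaf, .leaf,
    .leaf, .leaf, .leaf, .leaf, (.split 2 .leaf .leaf), .leaf, .leaf, .leaf, .leaf, .leaf, .leaf,
    .leaf, .leaf, (.split 2 .leaf .leaf), .leaf, .leaf, .leaf, (.split 0 .leaf .leaf), .leaf, .leaf,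
    .leaf, .leaf, .leaf, .leaf] = true := by
  decide +kernel

theorem sound10 : BoxSound dat box10 ∧ TopSound dat box10 :=
  bound_of_boxAll
    check10_0

end Vale.Agent.P237.Petty.Cor.Low20.H3b
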