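import Vale.Agent.P237.Petty.Cor.Low20.Chunks
import Vale.Agent.P237.Petty.Cor.Low20.H3b.Data

/-!
# P237: kernel checks of boxes 18 to 18
-/

namespace Vale.Agent.P237.Petty.Cor.Low20.H3b

def check18_0 : cutAll dat.Z1
    ((boxAll dat box18).take 10)
  [.leaf, .leaf, .leaf, .leaf, .leaf, (.split 0 .leaf (.split 1 .leaf .leaf)), .leaf, (.split 1
    .leaf (.split 0 .leaf (.split 1 .leaf (.split 1 .leaf (.split 0 .leaf (.split 1 .leaf (.split 1
    (.split 0 .leaf .out) .out))))))), .leaf, (.split 0 .leaf (.split 1 .leaf (.split 0 .leaf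
    (.split 1 .leaf (.split 0 (.split 1 .leaf (.split 0 (.split 1 .leaf (.split 0 .leaf (.split 1
    .leaf .out))) (.split 1 .leaf (.split 0 (.split 1 .leaf .out) (.split 1 (.split 0 .leaf .out)
    .out))))) (.split 1 .leaf (.split 0 (.split 1 (.split 0 .leaf (.split 1 .leaf (.split 0 .leaf
    (.split 1 .leaf .out)))) .out) (.split 1 (.split 0 (.split 1 .leaf (.split 0 (.split 1 .leaf
    .out) (.split 1 (.split 0 .leaf (.split 1 .leaf .out)) .out))) (.split 1 (.split 0 .leaf (.split
    1 .leaf (.split 0 .leaf (.split 1 .leaf (.split 0 .leaf (.split 1 .leaf .out)))))) (.split 0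
    (.split 1 (.split 0 (.split 1 .leaf .out) (.split 1 (.split 0 .leaf .out) .out)) .out) .out)))
    .out))))))))] = true := by
  decide +kernel

def check18_1 : cutAll dat.Z1
    ((boxAll dat box18).drop 10)
  [.leaf, .leaf, .leaf, .leaf, .leaf, .leaf, (.split 2 (.split 2 .leaf (.split 0 .leaf .leaf))
    (.split 2 (.split 0 .leaf .leaf) .leaf)), .leaf, .leaf, .leaf, .leaf, .leaf, .leaf, .leaf,
    .leaf, (.split 2 (.split 2 .leaf (.split 0 .leaf .leaf)) (.split 2 (.split 0 .leaf .leaf)
    .leaf)), .leaf, .leaf, .leaf, .leaf, .leaf, (.split 0 .leaf .leaf), .leaf, .leaf, .leaf, .leaf,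
    .leaf, .leaf] = true := by
  decide +kernel

theorem sound18 : BoxSound dat box18 ∧ TopSound dat box18 :=
  bound_of_boxAll
    (cutAll_of_take 10 check18_0
      check18_1)

end Vale.Agent.P237.Petty.Cor.Low20.H3b
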