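import Vale.Agent.P237.Petty.Cor.Low20.Chunks
import Vale.Agent.P237.Petty.Cor.Low20.H3b.Data

/-!
# P237: kernel checks of boxes 20 to 20
-/

namespace Vale.Agent.P237.Petty.Cor.Low20.H3b

def check20_0 : cutAll dat.Z1
    ((boxAll dat box20).take 9)
  [.leaf, .leaf, .leaf, .leaf, .leaf, (.split 0 (.split 1 .leaf .leaf) (.split 1 .leaf .leaf)),
    .leaf, (.split 0 (.split 1 .leaf (.split 0 (.split 1 .leaf (.split 0 .leaf (.split 1 .leaf
    (.split 0 .leaf (.split 1 .leaf .out))))) (.split 1 .leaf (.split 0 (.split 1 .leaf (.split 0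
    (.split 1 .leaf .out) .out)) (.split 1 .leaf .out))))) (.split 1 .leaf (.split 0 (.split 1 .leaf
    (.split 0 (.split 1 (.split 0 (.split 1 .leaf .out) (.split 1 .leaf .out)) .out) (.split 1
    (.split 0 (.split 1 .leaf .out) .out) .out))) (.split 1 (.split 0 .leaf (.split 1 .leaf (.split
    0 (.split 1 .leaf .out) (.split 1 .leaf .out)))) .out)))), .leaf] = true := by
  decide +kernel

def check20_1 : cutAll dat.Z1
    (((boxAll dat box20).drop 9).take 7)
  [(.split 0 (.split 1 .leaf (.split 0 .leaf (.split 1 .leaf (.split 0 (.split 1 .leaf (.split 0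
    (.split 1 .leaf .out) .out)) (.split 1 .leaf .out))))) (.split 1 .leaf (.split 0 (.split 1 .leaf
    (.split 0 (.split 1 (.split 0 (.split 1 .leaf .out) (.split 1 .leaf .out)) .out) (.split 1
    (.split 0 (.split 1 (.split 0 (.split 1 .leaf .out) .out) .out) .out) .out))) (.split 1 (.split
    0 (.split 1 .leaf (.split 0 (.split 1 .leaf (.split 0 (.split 1 .leaf .out) (.split 1 .leaf
    .out))) (.split 1 .leaf (.split 0 (.split 1 .leaf .out) .out)))) (.split 1 .leaf (.split 0
    (.split 1 (.split 0 .leaf (.split 1 .leaf (.split 0 .leaf (.split 1 .leaf .out)))) .out) (.split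
    1 (.split 0 (.split 1 .leaf (.split 0 (.split 1 .leaf .out) .out)) (.split 1 (.split 0 .leaf
    (.split 1 .leaf (.split 0 .leaf (.split 1 .leaf .out)))) .out)) .out)))) .out)))), (.split 0
    (.split 1 (.split 0 .leaf (.split 1 (.split 0 .leaf .leaf) .leaf)) .leaf) .leaf), (.split 2
    .leaf .leaf), .leaf, .leaf, .leaf, .leaf] = true := by
  decide +kernel

def check20_2 : cutAll dat.Z1
    ((((boxAll dat box20).drop 9).drop 7).take 10)
  [(.split 2 (.split 2 (.split 0 .leaf .leaf) (.split 0 .leaf .leaf)) (.split 2 (.split 0 .leaf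
    .leaf) (.split 0 .leaf .leaf))), (.split 2 (.split 2 (.split 0 .leaf .leaf) (.split 0 .leaf
    .leaf)) (.split 2 (.split 0 .leaf .leaf) (.split 0 .leaf .leaf))), (.split 2 (.split 2 (.split 0
    .leaf .leaf) (.split 0 .leaf .leaf)) (.split 2 (.split 0 .leaf .leaf) (.split 0 .leaf .leaf))),
    .leaf, (.split 2 .leaf .leaf), .leaf, .leaf, .leaf, .leaf, (.split 2 (.split 2 (.split 0 .leaf
    .leaf) (.split 0 .leaf .leaf)) (.split 2 (.split 0 .leaf .leaf) (.split 0 .leaf .leaf)))] = true := by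
  decide +kernel

def check20_3 : cutAll dat.Z1
    ((((boxAll dat box20).drop 9).drop 7).drop 10)
  [(.split 2 (.split 2 (.split 0 .leaf .leaf) (.split 0 .leaf .leaf)) (.split 2 (.split 0 .leaf
    .leaf) (.split 0 .leaf .leaf))), (.split 2 (.split 2 (.split 0 .leaf .leaf) (.split 0 .leaf
    .leaf)) (.split 2 (.split 0 .leaf .leaf) (.split 0 .leaf .leaf))), .leaf, (.split 0 .leaf
    (.split 1 .leaf (.split 0 .leaf (.split 1 .leaf .out)))), .leaf, (.split 0 .leaf .leaf), .leaf,
    .leaf, .leaf, .leaf, .leaf, .leaf] = true := by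
  decide +kernel

theorem sound20 : BoxSound dat box20 ∧ TopSound dat box20 :=
  bound_of_boxAll
    (cutAll_of_take 9 check20_0
      (cutAll_of_take 7 check20_1
      (cutAll_of_take 10 check20_2
      check20_3)))

end Vale.Agent.P237.Petty.Cor.Low20.H3b
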