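import Vale.Agent.P237.Petty.Cor.Low20.H3b.Data

/-!
# P237: kernel checks of the record
-/

namespace Vale.Agent.P237.Petty.Cor.Low20.H3b

/-- The trees of the rationals below the ratio of the mass above. -/
def millsTrees : List CTree :=
  [(.split 0 (.split 0 (.split 1 (.split 0 (.split 0 .leaf .leaf) .leaf) (.split 0 (.split 0 .leaf
    .leaf) .leaf)) .leaf) .leaf), .leaf, (.split 0 (.split 0 (.split 0 .leaf .leaf) (.split 0 .leaf
    .leaf)) .leaf), .leaf]

def checkMills : cutAll 0 (millsClaims dat) millsTrees = true := by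
  decide +kernel

def millsFull : millsTrees.all noOut = true := by
  decide +kernel

def checkFar : cutAll 1 (boxes.flatMap (farClaims dat))
  [.leaf, .leaf, .leaf, .leaf, .leaf, .leaf, .leaf, .leaf, .leaf, .leaf, .leaf, (.split 0 (.split 1
    .leaf (.split 0 .leaf .leaf)) .leaf), .leaf, .leaf, .leaf, .leaf, .leaf, .leaf, .leaf, .leaf,
    .leaf, .leaf, .leaf, .leaf, .leaf, .leaf, .leaf, .leaf, .leaf, .leaf, .leaf, .leaf, .leaf,
    .leaf, .leaf, .leaf, (.split 0 .leaf .leaf), .leaf, (.split 0 .leaf .leaf), (.split 0 .leaf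
    .leaf), (.split 0 (.split 1 (.split 0 .leaf .leaf) .leaf) .leaf), (.split 0 (.split 1 (.split 0
    .leaf (.split 1 (.split 0 .leaf .leaf) .leaf)) .leaf) .leaf), (.split 0 (.split 1 (.split 0
    .leaf (.split 1 .leaf .leaf)) .leaf) .leaf), (.split 0 (.split 1 (.split 0 .leaf (.split 1
    (.split 0 (.split 1 (.split 0 .leaf .leaf) .leaf) .leaf) .leaf)) .leaf) .leaf), (.split 0
    (.split 1 (.split 0 .leaf .leaf) .leaf) .leaf), .leaf, (.split 0 (.split 1 (.split 0 .leaf
    .leaf) .leaf) .leaf), .leaf, (.split 0 (.split 1 (.split 0 (.split 1 (.split 0 .leaf .leaf)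
    .leaf) .leaf) .leaf) .leaf), .leaf, .leaf, (.split 0 (.split 1 .leaf .out) (.split 1 .leaf
    .out))] = true := by
  decide +kernel

def shapeOk : okShape dat boxes 24 && okRecTop dat &&
    (boxes.take 24).all (okTop dat) = true := by
  decide +kernel

def atOk : (List.range 55).all (fun i => okAt dat boxes 24 (43 + i)) = true := by
  decide +kernel

end Vale.Agent.P237.Petty.Cor.Low20.H3b
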