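import Vale.Agent.P237.Petty.Cor.Low20.Chunks
import Vale.Agent.P237.Petty.Cor.Low20.H3b.Data

/-!
# P237: kernel checks of boxes 21 to 21
-/

namespace Vale.Agent.P237.Petty.Cor.Low20.H3b

def check21_0 : cutAll dat.Z1
    ((boxAll dat box21).take 7)
  [.leaf, .leaf, .leaf, .leaf, .leaf, (.split 0 (.split 1 .leaf .leaf) (.split 1 .leaf .leaf)),
    .leaf] = true := by
  decide +kernel

def check21_1 : cutAll dat.Z1
    (((boxAll dat box21).drop 7).take 2)
  [(.split 0 (.split 1 .leaf (.split 0 (.split 1 .leaf (.split 0 (.split 1 .leaf (.split 0 .leaf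
    (.split 1 .leaf (.split 0 .leaf (.split 1 .leaf .out))))) (.split 1 .leaf (.split 0 (.split 1
    .leaf .out) (.split 1 (.split 0 .leaf (.split 1 .leaf .out)) .out))))) (.split 1 .leaf (.split 0
    (.split 1 (.split 0 .leaf (.split 1 .leaf (.split 0 .leaf (.split 1 .leaf .out)))) .out) (.split
    1 (.split 0 (.split 1 .leaf .out) (.split 1 (.split 0 .leaf (.split 1 .leaf .out)) .out))
    .out))))) (.split 1 .leaf (.split 0 (.split 1 (.split 0 (.split 1 .leaf (.split 0 .leaf (.split
    1 .leaf (.split 0 .leaf (.split 1 .leaf .out))))) (.split 1 .leaf (.split 0 (.split 1 .leaf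
    (.split 0 (.split 1 .leaf .out) .out)) (.split 1 (.split 0 .leaf (.split 1 .leaf .out)) .out))))
    .out) (.split 1 (.split 0 (.split 1 .leaf (.split 0 (.split 1 (.split 0 (.split 1 .leaf .out)
    .out) .out) .out)) (.split 1 (.split 0 (.split 1 .leaf (.split 0 (.split 1 .leaf .out) (.split 1
    .leaf .out))) (.split 1 .leaf .out)) .out)) .out)))), .leaf] = true := by
  decide +kernel

def check21_2 : cutAll dat.Z1
    ((((boxAll dat box21).drop 7).drop 2).take 3)
  [(.split 0 (.split 1 .leaf (.split 0 .leaf (.split 1 .leaf (.split 0 (.split 1 .leaf .out) (.split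
    1 (.split 0 .leaf (.split 1 .leaf .out)) .out))))) (.split 1 .leaf (.split 0 (.split 1 (.split 0
    .leaf (.split 1 .leaf (.split 0 (.split 1 .leaf (.split 0 (.split 1 .leaf .out) .out)) (.split 1
    (.split 0 .leaf (.split 1 .leaf .out)) .out)))) .out) (.split 1 (.split 0 (.split 1 (.split 0
    .leaf (.split 1 .leaf (.split 0 .leaf (.split 1 .leaf (.split 0 .leaf .out))))) (.split 0
    (.split 1 (.split 0 (.split 1 .leaf .out) .out) .out) .out)) (.split 1 (.split 0 (.split 1 .leaf
    (.split 0 (.split 1 .leaf .out) (.split 1 (.split 0 .leaf .out) .out))) (.split 1 (.split 0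
    .leaf (.split 1 .leaf (.split 0 .leaf (.split 1 .leaf .out)))) .out)) .out)) .out)))), (.split 0
    (.split 1 (.split 0 .leaf (.split 1 (.split 0 (.split 1 (.split 0 .leaf .leaf) .leaf) .leaf)
    .leaf)) .leaf) .leaf), (.split 2 (.split 2 (.split 0 .leaf .leaf) (.split 0 .leaf .leaf))
    (.split 2 (.split 0 .leaf .leaf) (.split 0 .leaf .leaf)))] = true := by
  decide +kernel

def check21_3 : cutAll dat.Z1
    (((((boxAll dat box21).drop 7).drop 2).drop 3).take 6)
  [(.split 2 (.split 2 (.split 0 .leaf .leaf) (.split 0 .leaf .leaf)) (.split 2 (.split 0 .leaf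
    .leaf) (.split 0 .leaf .leaf))), (.split 0 (.split 2 .leaf (.split 2 .leaf (.split 1 .leaf
    .leaf))) .leaf), (.split 0 (.split 2 (.split 1 (.split 0 .leaf .leaf) .leaf) (.split 1 (.split 0
    .leaf .leaf) .leaf)) .leaf), (.split 0 (.split 2 (.split 1 (.split 0 .leaf .leaf) .leaf) (.split
    1 (.split 0 .leaf .leaf) .leaf)) .leaf), (.split 0 (.split 2 (.split 1 (.split 0 .leaf .leaf)
    .leaf) (.split 1 (.split 0 .leaf .leaf) .leaf)) .leaf), (.split 0 (.split 2 (.split 1 (.split 0
    .leaf .leaf) .leaf) (.split 1 (.split 0 .leaf .leaf) .leaf)) .leaf)] = true := by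
  decide +kernel

def check21_4 : cutAll dat.Z1
    ((((((boxAll dat box21).drop 7).drop 2).drop 3).drop 6).take 6)
  [(.split 0 (.split 2 (.split 1 (.split 0 .leaf .leaf) .leaf) (.split 1 (.split 0 .leaf .leaf)
    .leaf)) .leaf), (.split 2 (.split 2 (.split 0 .leaf .leaf) (.split 0 .leaf .leaf)) (.split 2
    (.split 0 .leaf .leaf) (.split 0 .leaf .leaf))), (.split 2 (.split 2 (.split 0 .leaf .leaf)
    (.split 0 .leaf .leaf)) (.split 2 (.split 0 .leaf .leaf) (.split 0 .leaf .leaf))), (.split 2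
    (.split 2 (.split 0 .leaf .leaf) (.split 0 .leaf .leaf)) (.split 2 (.split 0 .leaf .leaf)
    (.split 0 .leaf .leaf))), (.split 0 (.split 2 .leaf (.split 2 .leaf (.split 1 .leaf .leaf)))
    .leaf), (.split 0 (.split 2 (.split 1 (.split 0 .leaf .leaf) .leaf) (.split 1 (.split 0 .leaf
    .leaf) .leaf)) .leaf)] = true := by
  decide +kernel

def check21_5 : cutAll dat.Z1
    (((((((boxAll dat box21).drop 7).drop 2).drop 3).drop 6).drop 6).take 10)
  [(.split 0 (.split 2 (.split 1 (.split 0 .leaf .leaf) .leaf) (.split 1 (.split 0 .leaf .leaf)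
    .leaf)) .leaf), (.split 0 (.split 2 (.split 1 (.split 0 .leaf .leaf) .leaf) (.split 1 (.split 0
    .leaf .leaf) .leaf)) .leaf), (.split 0 (.split 2 (.split 1 (.split 0 .leaf .leaf) .leaf) (.split
    1 (.split 0 .leaf .leaf) .leaf)) .leaf), (.split 0 (.split 2 (.split 1 (.split 0 .leaf .leaf)
    .leaf) (.split 1 (.split 0 .leaf .leaf) .leaf)) .leaf), (.split 2 (.split 2 (.split 0 .leaf
    .leaf) (.split 0 .leaf .leaf)) (.split 2 (.split 0 .leaf .leaf) (.split 0 .leaf .leaf))),
    (.split 0 .leaf (.split 1 .leaf (.split 0 .leaf (.split 1 .leaf .out)))), .leaf, (.split 0 .leaf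
    .leaf), .leaf, .leaf] = true := by
  decide +kernel

def check21_6 : cutAll dat.Z1
    (((((((boxAll dat box21).drop 7).drop 2).drop 3).drop 6).drop 6).drop 10)
  [.leaf, .leaf, .leaf, .leaf] = true := by
  decide +kernel

theorem sound21 : BoxSound dat box21 ∧ TopSound dat box21 :=
  bound_of_boxAll
    (cutAll_of_take 7 check21_0
      (cutAll_of_take 2 check21_1
      (cutAll_of_take 3 check21_2
      (cutAll_of_take 6 check21_3
      (cutAll_of_take 6 check21_4
      (cutAll_of_take 10 check21_5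
      check21_6))))))

end Vale.Agent.P237.Petty.Cor.Low20.H3b
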